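import Vale.Agent.H29.GSH.S

/-! # P329 row C: the criterion (helper29) -/

namespace Vale.Agent.H29.GSH

open Vale.Agent.H24.GSH

section crit

variable {α Q : Type}

/-- the automaton off the base state -/
def off (δ : Option Q → α → Option Q) : Q → α → Option Q := fun q a => δ (some q) a

/-- words reaching the base state for the first time at their last letter -/
def EE (δ : Option Q → α → Option Q) (i : Q) : Set (List α) :=
  {w | ∃ (p : Q) (a : α) (u : List α), w = u ++ [a] ∧ run (off δ) i u = some p ∧
    δ (some p) a = none}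

/-- first return words -/
def XX (δ : Option Q → α → Option Q) : Set (List α) :=
  {w | ∃ a, (δ none a = none ∧ w = [a]) ∨ ∃ q, δ none a = some q ∧ ∃ u ∈ EE δ q, w = a :: u}

/-- words leaving the base state for ever and ending in `j` -/
def YY (δ : Option Q → α → Option Q) (j : Q) : Set (List α) :=
  {w | ∃ a q, δ none a = some q ∧ ∃ u, run (off δ) q u = some j ∧ w = a :: u}

theorem L1 (δ : Option Q → α → Option Q) (w : List α) : ∀ i j : Q,
    run (off δ) i w = some j → w.foldl δ (some i) = some j := by
  induction w with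
  | nil => intro i j h; simpa [run] using h
  | cons a w ih =>
    intro i j h
    simp only [run, off] at h
    rw [List.foldl_cons]
    cases hq : δ (some i) a with
    | none => rw [hq] at h; simp at h
    | some q => rw [hq] at h; exact ih q j h

theorem L2 (δ : Option Q → α → Option Q) (i : Q) {w : List α} (h : w ∈ EE δ i) :
    w.foldl δ (some i) = none := by
  obtain ⟨p, a, u, rfl, h1, h2⟩ := h
  rw [List.foldl_append, L1 δ u i p h1]
  exact h2

theorem L3 (δ : Option Q → α → Option Q) (w : List α) : ∀ i : Q,
    (∃ j, run (off δ) i w = some j) ∨ ∃ u ∈ EE δ i, ∃ v, w = u ++ v := by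
  induction w with
  | nil => intro i; exact Or.inl ⟨i, rfl⟩
  | cons a w ih =>
    intro i
    cases hq : δ (some i) a with
    | none => exact Or.inr ⟨[a], ⟨i, a, [], rfl, rfl, hq⟩, w, rfl⟩
    | some q =>
      rcases ih q with ⟨j, hj⟩ | ⟨u, ⟨p, c, u', hu, h1, h2⟩, v, hv⟩
      · left
        refine ⟨j, ?_⟩
        simp only [run, off]
        rw [hq]; exact hj
      · right
        refine ⟨a :: u, ⟨p, c, a :: u', by rw [hu]; rfl, ?_, h2⟩, v, by rw [hv]; rfl⟩
        simp only [run, off]
        rw [hq]; exact h1

theorem foldl_XX (δ : Option Q → α → Option Q) {w : List α} (h : w ∈ XX δ) :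
    w.foldl δ none = none := by
  obtain ⟨a, ⟨h1, rfl⟩ | ⟨q, h1, u, hu, rfl⟩⟩ := h
  · exact h1
  · rw [List.foldl_cons, h1]; exact L2 δ q hu

theorem foldl_kst (δ : Option Q → α → Option Q) {w : List α} (h : w ∈ kst (XX δ)) :
    w.foldl δ none = none := by
  obtain ⟨l, hl, rfl⟩ := h
  induction l with
  | nil => rfl
  | cons x l ih =>
    rw [List.flatten_cons, List.foldl_append, foldl_XX δ (hl x (by simp))]
    exact ih (fun y hy => hl y (by simp [hy]))

theorem kst_cons {X : Set (List α)} {x w : List α} (hx : x ∈ X) (hw : w ∈ kst X) :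
    x ++ w ∈ kst X := by
  obtain ⟨l, hl, rfl⟩ := hw
  refine ⟨x :: l, ?_, by simp⟩
  intro y hy
  rcases List.mem_cons.mp hy with rfl | hy
  · exact hx
  · exact hl y hy

theorem mem_kst (δ : Option Q → α → Option Q) (n : ℕ) : ∀ w : List α, w.length ≤ n →
    (w.foldl δ none = none → w ∈ kst (XX δ)) ∧
    (∀ j, w.foldl δ none = some j → w ∈ cat (kst (XX δ)) (YY δ j)) := by
  induction n with
  | zero =>
    intro w hw
    have : w = [] := List.length_eq_zero_iff.mp (by omega)
    subst this
    exact ⟨fun _ => ⟨[], by simp, rfl⟩, fun j h => by simp at h⟩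
  | succ n ih =>
    intro w hw
    cases w with
    | nil => exact ⟨fun _ => ⟨[], by simp, rfl⟩, fun j h => by simp at h⟩
    | cons a w =>
      rw [List.length_cons] at hw
      cases hq : δ none a with
      | none =>
        have hX : [a] ∈ XX δ := ⟨a, Or.inl ⟨hq, rfl⟩⟩
        obtain ⟨h1, h2⟩ := ih w (by omega)
        constructor
        · intro h
          rw [List.foldl_cons, hq] at h
          exact kst_cons hX (h1 h)
        · intro j h
          rw [List.foldl_cons, hq] at h
          obtain ⟨x, hx, y, hy, rfl⟩ := h2 j h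
          exact ⟨[a] ++ x, kst_cons hX hx, y, hy, by simp⟩
      | some q =>
        rcases L3 δ w q with ⟨j', hj'⟩ | ⟨u, hu, v, rfl⟩
        · have h3 := L1 δ w q j' hj'
          constructor
          · intro h
            rw [List.foldl_cons, hq, h3] at h
            simp at h
          · intro j h
            rw [List.foldl_cons, hq, h3] at h
            have hjj : j' = j := Option.some.inj h
            exact ⟨[], ⟨[], by simp, rfl⟩, a :: w, ⟨a, q, hq, w, by rw [hj', hjj], rfl⟩, rfl⟩
        · have hX : a :: u ∈ XX δ := ⟨a, Or.inr ⟨q, hq, u, hu, rfl⟩⟩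
          rw [List.length_append] at hw
          obtain ⟨h1, h2⟩ := ih v (by omega)
          have e : a :: (u ++ v) = (a :: u) ++ v := rfl
          constructor
          · intro h
            rw [List.foldl_cons, hq, List.foldl_append, L2 δ q hu] at h
            rw [e]; exact kst_cons hX (h1 h)
          · intro j h
            rw [List.foldl_cons, hq, List.foldl_append, L2 δ q hu] at h
            obtain ⟨x, hx, y, hy, hv⟩ := h2 j h
            refine ⟨(a :: u) ++ x, kst_cons hX hx, y, hy, ?_⟩
            rw [e, hv]; simp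

end crit

/-- ROW C (criterion). Base state `none`. -/
theorem criterion {α Q : Type} [Fintype α] [DecidableEq α] [Fintype Q] [LinearOrder Q]
    (δ : Option Q → α → Option Q) (hm : Mono (fun q a => δ (some q) a)) (i j : Option Q) :
    H 1 {w : List α | w.foldl δ i = j} := by
  have hK : ∀ p q : Q, H 0 {w : List α | run (off δ) p w = some q} :=
    fun p q => sf_run (off δ) hm p q
  have hE : ∀ p : Q, H 0 (EE δ p) := by
    intro p
    have h1 := H_iUnion_prop (k := 0) (fun t : Q × α => δ (some t.1) t.2 = none)
      (fun t => cat {w : List α | run (off δ) p w = some t.1} {[t.2]})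
      (fun t _ => (hK p t.1).cat (H_letter t.2))
    convert h1 using 1
    ext w
    constructor
    · rintro ⟨q, a, u, h2, h3, h4⟩
      exact ⟨(q, a), h4, u, h3, [a], rfl, h2⟩
    · rintro ⟨⟨q, a⟩, h4, u, h3, v, hv, h2⟩
      obtain rfl : v = [a] := hv
      exact ⟨q, a, u, h2, h3, h4⟩
  have hX : H 0 (XX δ) := by
    have h1 := (H_iUnion_prop (k := 0) (fun a : α => δ none a = none) (fun a => {[a]})
      (fun a _ => H_letter a)).union (H_iUnion_prop (k := 0)
        (fun t : α × Q => δ none t.1 = some t.2) (fun t => cat {[t.1]} (EE δ t.2))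
        (fun t _ => (H_letter t.1).cat (hE t.2)))
    convert h1 using 1
    ext w
    constructor
    · rintro ⟨a, ⟨h2, rfl⟩ | ⟨q, h2, u, hu, rfl⟩⟩
      · exact Or.inl ⟨a, h2, rfl⟩
      · exact Or.inr ⟨(a, q), h2, [a], rfl, u, hu, rfl⟩
    · rintro (⟨a, h2, h3⟩ | ⟨⟨a, q⟩, h2, x, hx, u, hu, rfl⟩)
      · exact ⟨a, Or.inl ⟨h2, h3⟩⟩
      · obtain rfl : x = [a] := hx
        exact ⟨a, Or.inr ⟨q, h2, u, hu, rfl⟩⟩
  have hY : ∀ q : Q, H 0 (YY δ q) := by
    intro q
    have h1 := H_iUnion_prop (k := 0) (fun t : α × Q => δ none t.1 = some t.2)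
      (fun t => cat {[t.1]} {w : List α | run (off δ) t.2 w = some q})
      (fun t _ => (H_letter t.1).cat (hK t.2 q))
    convert h1 using 1
    ext w
    constructor
    · rintro ⟨a, p, h2, u, hu, rfl⟩
      exact ⟨(a, p), h2, [a], rfl, u, hu, rfl⟩
    · rintro ⟨⟨a, p⟩, h2, x, hx, u, hu, rfl⟩
      obtain rfl : x = [a] := hx
      exact ⟨a, p, h2, u, hu, rfl⟩
  have hNN : H 1 {w : List α | w.foldl δ none = none} := by
    convert hX.star using 1
    ext w
    exact ⟨fun h => (mem_kst δ _ w le_rfl).1 h, fun h => foldl_kst δ h⟩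
  have hNS : ∀ q : Q, H 1 {w : List α | w.foldl δ none = some q} := by
    intro q
    convert hX.star.cat ((hY q).mono (Nat.zero_le 1)) using 1
    ext w
    constructor
    · exact fun h => (mem_kst δ _ w le_rfl).2 q h
    · rintro ⟨x, hx, y, ⟨a, p, h2, u, hu, rfl⟩, rfl⟩
      show (x ++ a :: u).foldl δ none = some q
      rw [List.foldl_append, foldl_kst δ hx, List.foldl_cons, h2]
      exact L1 δ u p q hu
  have hN : ∀ t : Option Q, H 1 {w : List α | w.foldl δ none = t} := by
    intro t
    cases t with
    | none => exact hNN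
    | some q => exact hNS q
  cases i with
  | none => exact hN j
  | some p =>
    have h1 := (H_iUnion_prop (k := 1) (fun q : Q => some q = j)
      (fun q => {w : List α | run (off δ) p w = some q})
      (fun q _ => (hK p q).mono (Nat.zero_le 1))).union
      (((hE p).mono (Nat.zero_le 1)).cat (hN j))
    convert h1 using 1
    ext w
    constructor
    · intro h
      rcases L3 δ w p with ⟨q, hq⟩ | ⟨u, hu, v, rfl⟩
      · left
        refine ⟨q, ?_, hq⟩
        have h2 : w.foldl δ (some p) = j := h
        rw [L1 δ w p q hq] at h2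
        exact h2
      · right
        refine ⟨u, hu, v, ?_, rfl⟩
        have h2 : (u ++ v).foldl δ (some p) = j := h
        rw [List.foldl_append, L2 δ p hu] at h2
        exact h2
    · rintro (⟨q, hq, h2⟩ | ⟨u, hu, v, hv, rfl⟩)
      · show w.foldl δ (some p) = j
        rw [L1 δ w p q h2]; exact hq
      · show (u ++ v).foldl δ (some p) = j
        rw [List.foldl_append, L2 δ p hu]; exact hv

end Vale.Agent.H29.GSH
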