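import Vale.Agent.H24.GSH.Defs

/-! # P329 row S: star-freeness for order preserving partial injections (helper29) -/

namespace Vale.Agent.H29.GSH

open Vale.Agent.H24.GSH

section aux

variable {α Q : Type}

theorem run_append (δ : Q → α → Option Q) (q : Q) (u v : List α) :
    run δ q (u ++ v) = (run δ q u).bind fun p => run δ p v := by
  induction u generalizing q with
  | nil => simp [run]
  | cons a u ih =>
    simp only [List.cons_append, run]
    cases h : δ q a with
    | none => simp
    | some p => simp [ih]

theorem run_mono [LinearOrder Q] {δ : Q → α → Option Q} (hm : Mono δ) (u : List α) :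
    ∀ {p q p' q' : Q}, p < q → run δ p u = some p' → run δ q u = some q' → p' < q' := by
  induction u with
  | nil =>
    intro p q p' q' h h1 h2
    simp only [run, Option.some.injEq] at h1 h2
    subst h1; subst h2; exact h
  | cons a u ih =>
    intro p q p' q' h h1 h2
    simp only [run] at h1 h2
    cases hp : δ p a with
    | none => simp [hp] at h1
    | some p1 =>
      cases hq : δ q a with
      | none => simp [hq] at h2
      | some q1 =>
        rw [hp] at h1; rw [hq] at h2
        exact ih (hm a p q p1 q1 h hp hq) h1 h2

/-- words over `B` -/
def Ov (B : Set α) : Set (List α) := {w | ∀ a ∈ w, a ∈ B}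

/-- `u₁ b u₂ b … u_k b` -/
def glue (b : α) (us : List (List α)) : List α := us.flatMap (fun u => u ++ [b])

theorem glue_nil (b : α) : glue b [] = [] := rfl

theorem glue_cons (b : α) (u : List α) (us : List (List α)) :
    glue b (u :: us) = u ++ b :: glue b us := by
  simp [glue]

theorem glue_append (b : α) (us vs : List (List α)) :
    glue b (us ++ vs) = glue b us ++ glue b vs := by
  simp [glue]

theorem cut_inj {b : α} : ∀ (u v s t : List α), b ∉ u → b ∉ v → u ++ b :: s = v ++ b :: t →
    u = v ∧ s = t := by
  intro u
  induction u with
  | nil =>
    intro v s t _ hv h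
    cases v with
    | nil => simp at h; exact ⟨rfl, h⟩
    | cons c v =>
      simp only [List.nil_append, List.cons_append, List.cons.injEq] at h
      exact absurd (by rw [h.1]; simp) hv
  | cons a u ih =>
    intro v s t hu hv h
    cases v with
    | nil =>
      simp only [List.nil_append, List.cons_append, List.cons.injEq] at h
      exact absurd (by rw [h.1]; simp) hu
    | cons c v =>
      simp only [List.cons_append, List.cons.injEq] at h
      obtain ⟨h1, h2⟩ := ih v s t (fun h' => hu (List.mem_cons_of_mem _ h'))
        (fun h' => hv (List.mem_cons_of_mem _ h')) h.2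
      exact ⟨by rw [h.1, h1], h2⟩

theorem glue_inj {b : α} {B : Set α} (hb : b ∉ B) : ∀ (us vs : List (List α)),
    (∀ u ∈ us, u ∈ Ov B) → (∀ v ∈ vs, v ∈ Ov B) → glue b us = glue b vs → us = vs := by
  intro us
  induction us with
  | nil =>
    intro vs _ _ h
    cases vs with
    | nil => rfl
    | cons v vs => rw [glue_nil, glue_cons] at h; simp at h
  | cons u us ih =>
    intro vs hus hvs h
    cases vs with
    | nil => rw [glue_nil, glue_cons] at h; simp at h
    | cons v vs =>
      rw [glue_cons, glue_cons] at h
      obtain ⟨h1, h2⟩ := cut_inj u v _ _ (fun h' => hb (hus u (by simp) b h'))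
        (fun h' => hb (hvs v (by simp) b h')) h
      rw [h1, ih vs (fun x hx => hus x (by simp [hx])) (fun x hx => hvs x (by simp [hx])) h2]

theorem decomp {b : α} {B B' : Set α} (hBB : ∀ a ∈ B, a = b ∨ a ∈ B') : ∀ w ∈ Ov B,
    ∃ us : List (List α), ∃ v : List α, (∀ u ∈ us, u ∈ Ov B') ∧ v ∈ Ov B' ∧
      w = glue b us ++ v := by
  intro w
  induction w with
  | nil => intro _; exact ⟨[], [], by simp, by simp [Ov], rfl⟩
  | cons a w ih =>
    intro hw
    obtain ⟨us, v, h1, h2, h3⟩ := ih (fun x hx => hw x (List.mem_cons_of_mem _ hx))
    rcases hBB a (hw a (by simp)) with h | h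
    · refine ⟨[] :: us, v, ?_, h2, ?_⟩
      · intro u hu
        rcases List.mem_cons.mp hu with rfl | hu
        · simp [Ov]
        · exact h1 u hu
      · rw [glue_cons, h3, h]; rfl
    · cases us with
      | nil =>
        refine ⟨[], a :: v, by simp, ?_, ?_⟩
        · intro x hx
          rcases List.mem_cons.mp hx with rfl | hx
          · exact h
          · exact h2 x hx
        · rw [h3]; rfl
      | cons u us =>
        refine ⟨(a :: u) :: us, v, ?_, h2, ?_⟩
        · intro x hx
          rcases List.mem_cons.mp hx with rfl | hx
          · intro y hy
            rcases List.mem_cons.mp hy with rfl | hy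
            · exact h
            · exact h1 u (by simp) y hy
          · exact h1 x (by simp [hx])
        · rw [h3, glue_cons, glue_cons]; rfl

/-- all words `u₁ b … u_k b` with `u_i` over `B'` -/
def Bs (b : α) (B' : Set α) : Set (List α) :=
  {w | ∃ us : List (List α), (∀ u ∈ us, u ∈ Ov B') ∧ w = glue b us}

theorem glue_mem {b : α} {B B' : Set α} (hb : b ∈ B) (hB : B' ⊆ B) (us : List (List α))
    (h : ∀ u ∈ us, u ∈ Ov B') : glue b us ∈ Ov B := by
  induction us with
  | nil => simp [glue, Ov]
  | cons u us ih =>
    rw [glue_cons]
    intro a ha
    rcases List.mem_append.mp ha with ha | ha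
    · exact hB (h u (by simp) a ha)
    · rcases List.mem_cons.mp ha with rfl | ha
      · exact hb
      · exact ih (fun x hx => h x (by simp [hx])) a ha

theorem H_Bs [Finite α] {b : α} {B B' : Set α} (hb : b ∈ B) (hB : B' ⊆ B)
    (hBB : ∀ a ∈ B, a = b ∨ a ∈ B') : H 0 (Bs b B') := by
  have e : Bs b B' = {[]} ∪ cat (Ov B) {[b]} := by
    ext w
    constructor
    · rintro ⟨us, h1, rfl⟩
      rcases List.eq_nil_or_concat us with rfl | ⟨vs, v, rfl⟩
      · left; rfl
      · right
        rw [List.concat_eq_append] at h1 ⊢
        refine ⟨glue b vs ++ v, ?_, [b], rfl, ?_⟩
        · intro a ha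
          rcases List.mem_append.mp ha with ha | ha
          · exact glue_mem hb hB vs (fun x hx => h1 x (by simp [hx])) a ha
          · exact hB (h1 v (by simp) a ha)
        · rw [glue_append, glue_cons, glue_nil]; simp
    · rintro (rfl | ⟨u, hu, v, hv, rfl⟩)
      · exact ⟨[], by simp, rfl⟩
      · obtain ⟨us, v', h1, h2, rfl⟩ := decomp hBB u hu
        obtain rfl : v = [b] := hv
        refine ⟨us ++ [v'], ?_, ?_⟩
        · intro x hx
          rcases List.mem_append.mp hx with hx | hx
          · exact h1 x hx
          · rw [List.mem_singleton.mp hx]; exact h2
        · rw [glue_append, glue_cons, glue_nil]; simp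
  rw [e]
  exact H_eps.union ((H_over B).cat (H_letter b))

/-- pull back of a language along the block coding -/
def Pb {β : Type} (b : α) (B' : Set α) (γ : List α → β) (L : Set (List β)) : Set (List α) :=
  {w | ∃ us : List (List α), (∀ u ∈ us, u ∈ Ov B') ∧ w = glue b us ∧ us.map γ ∈ L}

theorem H_Pb {β : Type} {b : α} {B' : Set α} (hb : b ∉ B') (γ : List α → β)
    (hγ : ∀ g, H 0 {u : List α | u ∈ Ov B' ∧ γ u = g}) (hbs : H 0 (Bs b B')) (P : GRE β)
    (hP : P.sh ≤ 0) : H 0 (Pb b B' γ P.lang) := by
  induction P with
  | zero =>
    have e : Pb b B' γ (GRE.zero : GRE β).lang = ∅ := by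
      ext w
      simp [Pb, GRE.lang]
    rw [e]; exact H_empty
  | one =>
    have e : Pb b B' γ (GRE.one : GRE β).lang = {[]} := by
      ext w
      constructor
      · rintro ⟨us, h1, rfl, h3⟩
        have h4 : us.map γ = [] := h3
        rw [List.map_eq_nil_iff] at h4
        rw [h4]; rfl
      · intro h
        obtain rfl : w = [] := h
        exact ⟨[], by simp, rfl, rfl⟩
    rw [e]; exact H_eps
  | letter g =>
    have e : Pb b B' γ (GRE.letter g : GRE β).lang =
        cat {u : List α | u ∈ Ov B' ∧ γ u = g} {[b]} := by
      ext w
      constructor
      · rintro ⟨us, h1, rfl, h3⟩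
        have h4 : us.map γ = [g] := h3
        rw [List.map_eq_singleton_iff] at h4
        obtain ⟨u, rfl, hu⟩ := h4
        exact ⟨u, ⟨h1 u (by simp), hu⟩, [b], rfl, by rw [glue_cons, glue_nil]⟩
      · rintro ⟨u, ⟨hu, hu2⟩, v, hv, rfl⟩
        obtain rfl : v = [b] := hv
        exact ⟨[u], by simpa using hu, by rw [glue_cons, glue_nil], by
          show [γ u] = [g]; rw [hu2]⟩
    rw [e]; exact (hγ g).cat (H_letter b)
  | add P R ihP ihR =>
    have hs : max P.sh R.sh ≤ 0 := hP
    have e : Pb b B' γ (GRE.add P R).lang = Pb b B' γ P.lang ∪ Pb b B' γ R.lang := by
      ext w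
      constructor
      · rintro ⟨us, h1, h2, h3 | h3⟩
        · left; exact ⟨us, h1, h2, h3⟩
        · right; exact ⟨us, h1, h2, h3⟩
      · rintro (⟨us, h1, h2, h3⟩ | ⟨us, h1, h2, h3⟩)
        · exact ⟨us, h1, h2, Or.inl h3⟩
        · exact ⟨us, h1, h2, Or.inr h3⟩
    rw [e]; exact (ihP (by omega)).union (ihR (by omega))
  | mul P R ihP ihR =>
    have hs : max P.sh R.sh ≤ 0 := hP
    have e : Pb b B' γ (GRE.mul P R).lang = cat (Pb b B' γ P.lang) (Pb b B' γ R.lang) := by
      ext w
      constructor
      · rintro ⟨us, h1, rfl, x, hx, y, hy, h3⟩
        rw [List.map_eq_append_iff] at h3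
        obtain ⟨us1, us2, rfl, rfl, rfl⟩ := h3
        exact ⟨glue b us1, ⟨us1, fun u hu => h1 u (by simp [hu]), rfl, hx⟩, glue b us2,
          ⟨us2, fun u hu => h1 u (by simp [hu]), rfl, hy⟩, glue_append _ _ _⟩
      · rintro ⟨_, ⟨us1, h1, rfl, h3⟩, _, ⟨us2, h4, rfl, h6⟩, rfl⟩
        refine ⟨us1 ++ us2, ?_, (glue_append _ _ _).symm, us1.map γ, h3, us2.map γ, h6, ?_⟩
        · intro u hu
          rcases List.mem_append.mp hu with hu | hu
          · exact h1 u hu
          · exact h4 u hu
        · exact List.map_append
    rw [e]; exact (ihP (by omega)).cat (ihR (by omega))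
  | compl P ihP =>
    have hs : P.sh ≤ 0 := hP
    have e : Pb b B' γ (GRE.compl P).lang = Bs b B' ∩ (Pb b B' γ P.lang)ᶜ := by
      ext w
      constructor
      · rintro ⟨us, h1, h2, h3⟩
        refine ⟨⟨us, h1, h2⟩, ?_⟩
        rintro ⟨vs, h4, h5, h6⟩
        have h7 := glue_inj hb us vs h1 h4 (h2.symm.trans h5)
        rw [← h7] at h6
        exact h3 h6
      · rintro ⟨⟨us, h1, h2⟩, h3⟩
        exact ⟨us, h1, h2, fun h4 => h3 ⟨us, h1, h2, h4⟩⟩
    rw [e]; exact hbs.inter (ihP hs).compl
  | star P _ =>
    have hs : P.sh + 1 ≤ 0 := hP
    omega

end aux

open Classical in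
/-- ROW S -/
theorem main (n : ℕ) : ∀ (Q : Type) [Fintype Q] [LinearOrder Q], Fintype.card Q ≤ n →
    ∀ (α : Type) [Fintype α] (δ : Q → α → Option Q), Mono δ → ∀ i j : Q,
      H 0 {w : List α | run δ i w = some j} := by
  induction n with
  | zero =>
    intro Q _ _ hc α _ δ hm i j
    have := Fintype.card_pos_iff.mpr ⟨i⟩
    omega
  | succ n ih =>
    intro Q _ _ hc α _ δ hm
    have key : ∀ B : Finset α, ∀ i j : Q,
        H 0 {w : List α | w ∈ Ov (B : Set α) ∧ run δ i w = some j} := by
      intro B
      induction B using Finset.strongInduction with
      | H B ihB =>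
      by_cases hall : ∀ b ∈ B, ∀ q, ∃ p, δ q b = some p
      · -- all letters act as the identity
        have hid : ∀ b ∈ B, ∀ q, δ q b = some q := by
          intro b hb q
          choose f hf using hall b hb
          have hmono : StrictMono f := fun p q hpq => hm b p q _ _ hpq (hf p) (hf q)
          have h1 : q ≤ f q := hmono.le_apply
          have h2 : f q ≤ q := hmono.apply_le
          rw [hf q, le_antisymm h2 h1]
        have hrun : ∀ w ∈ Ov (B : Set α), ∀ i, run δ i w = some i := by
          intro w
          induction w with
          | nil => intro _ i; rfl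
          | cons a w ihw =>
            intro hw i
            simp only [run]
            rw [hid a (hw a (by simp)) i]
            exact ihw (fun x hx => hw x (List.mem_cons_of_mem _ hx)) i
        intro i j
        by_cases hij : i = j
        · have e : {w : List α | w ∈ Ov (B : Set α) ∧ run δ i w = some j} = Ov (B : Set α) := by
            ext w
            constructor
            · exact fun h => h.1
            · exact fun h => ⟨h, by rw [hrun w h i, hij]⟩
          rw [e]; exact H_over _
        · have e : {w : List α | w ∈ Ov (B : Set α) ∧ run δ i w = some j} = ∅ := by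
            ext w
            simp only [Set.mem_ofPred_eq, Set.mem_empty_iff_false, iff_false]
            rintro ⟨h1, h2⟩
            rw [hrun w h1 i] at h2
            exact hij (Option.some.inj h2)
          rw [e]; exact H_empty
      · push Not at hall
        obtain ⟨b, hbB, q0, hq0⟩ := hall
        set B' := B.erase b with hB'
        have hR := ihB B' (Finset.erase_ssubset hbB)
        have hbB' : b ∉ (B' : Set α) := by simp [hB']
        have hsub : (B' : Set α) ⊆ (B : Set α) := by
          intro x hx
          exact Finset.mem_of_mem_erase hx
        have hBB : ∀ a ∈ (B : Set α), a = b ∨ a ∈ (B' : Set α) := by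
          intro a ha
          by_cases h : a = b
          · exact Or.inl h
          · exact Or.inr (Finset.mem_erase.mpr ⟨h, ha⟩)
        let Q' : Type := {p : Q // ∃ q, δ q b = some p}
        have hcard : Fintype.card Q' ≤ n := by
          have h1 : Fintype.card Q' < Fintype.card Q := by
            refine Fintype.card_lt_of_injective_not_surjective (fun p : Q' => p.2.choose) ?_ ?_
            · intro p p' hpp
              have h1 := p.2.choose_spec
              have h2 := p'.2.choose_spec
              simp only at hpp
              rw [hpp, h2] at h1
              exact Subtype.ext (Option.some.inj h1).symm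
            · intro hs
              obtain ⟨p, hp⟩ := hs q0
              have h1 := p.2.choose_spec
              simp only at hp
              rw [hp] at h1
              exact hq0 _ h1
          omega
        let δb : Q → Option Q' := fun p =>
          if h : ∃ r, δ p b = some r then some ⟨h.choose, p, h.choose_spec⟩ else none
        have hδb : ∀ p (r : Q'), δb p = some r ↔ δ p b = some r.1 := by
          intro p r
          constructor
          · intro h
            by_cases h1 : ∃ r, δ p b = some r
            · simp only [δb, dif_pos h1, Option.some.injEq] at h
              rw [← h]; exact h1.choose_spec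
            · simp only [δb, dif_neg h1] at h
              exact absurd h (by simp)
          · intro h
            have h1 : ∃ r, δ p b = some r := ⟨_, h⟩
            simp only [δb, dif_pos h1, Option.some.injEq]
            apply Subtype.ext
            have h2 := h1.choose_spec
            exact Option.some.inj (h2.symm.trans h)
        let γ : List α → (Q' → Option Q') := fun u q => (run δ q.1 u).bind δb
        let δ' : Q' → (Q' → Option Q') → Option Q' := fun q g =>
          if (∀ p q p' q' : Q', p < q → g p = some p' → g q = some q' → p' < q') then g q else none
        have hm' : Mono δ' := by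
          intro g p q p' q' hpq h1 h2
          by_cases hg : ∀ p q p' q' : Q', p < q → g p = some p' → g q = some q' → p' < q'
          · simp only [δ', if_pos hg] at h1 h2
            exact hg p q p' q' hpq h1 h2
          · simp only [δ', if_neg hg] at h1
            exact absurd h1 (by simp)
        have hγm : ∀ u, ∀ p q p' q' : Q', p < q → γ u p = some p' → γ u q = some q' → p' < q' := by
          intro u p q p' q' hpq h1 h2
          simp only [γ] at h1 h2
          cases hp : run δ p.1 u with
          | none => rw [hp] at h1; simp at h1
          | some p1 =>
            cases hq : run δ q.1 u with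
            | none => rw [hq] at h2; simp at h2
            | some q1 =>
              rw [hp] at h1; rw [hq] at h2
              simp only [Option.bind_some] at h1 h2
              rw [hδb] at h1 h2
              exact hm b p1 q1 _ _ (run_mono hm u hpq hp hq) h1 h2
        have hδ'γ : ∀ q u, δ' q (γ u) = γ u q := by
          intro q u
          simp only [δ', if_pos (hγm u)]
        have hrun' : ∀ (us : List (List α)) (p : Q'),
            run δ p.1 (glue b us) = (run δ' p (us.map γ)).map Subtype.val := by
          intro us
          induction us with
          | nil => intro p; rfl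
          | cons u us ihu =>
            intro p
            rw [glue_cons, run_append, List.map_cons]
            simp only [run]
            rw [hδ'γ]
            simp only [γ]
            cases hp : run δ p.1 u with
            | none => simp
            | some p1 =>
              simp only [Option.bind_some]
              cases hr : δ p1 b with
              | none =>
                have : δb p1 = none := by
                  cases h : δb p1 with
                  | none => rfl
                  | some r => rw [hδb, hr] at h; simp at h
                rw [this]; simp
              | some r =>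
                have : δb p1 = some ⟨r, p1, hr⟩ := by rw [hδb]; exact hr
                rw [this]
                simp only [Option.bind_some]
                exact ihu ⟨r, p1, hr⟩
        have hsome : ∀ (q : Q') (r : Q'), H 0 {u : List α | u ∈ Ov (B' : Set α) ∧
            (run δ q.1 u).bind δb = some r} := by
          intro q r
          have h1 := H_iUnion_prop (k := 0) (fun p : Q => δb p = some r)
            (fun p => {u : List α | u ∈ Ov (B' : Set α) ∧ run δ q.1 u = some p})
            (fun p _ => hR q.1 p)
          convert h1 using 1
          ext u
          simp only [Set.mem_ofPred_eq]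
          constructor
          · rintro ⟨h2, h3⟩
            cases h4 : run δ q.1 u with
            | none => rw [h4] at h3; simp at h3
            | some p => rw [h4] at h3; exact ⟨p, h3, h2, rfl⟩
          · rintro ⟨p, h2, h3, h4⟩
            exact ⟨h3, by rw [h4]; exact h2⟩
        have hall' : ∀ (q : Q') (t : Option Q'), H 0 {u : List α | u ∈ Ov (B' : Set α) ∧
            (run δ q.1 u).bind δb = t} := by
          intro q t
          cases t with
          | some r => exact hsome q r
          | none =>
            have h1 := (H_over (B' : Set α)).inter (H_iUnion (k := 0) _ (hsome q)).compl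
            convert h1 using 1
            ext u
            simp only [Set.mem_ofPred_eq, Set.mem_inter_iff, Set.mem_compl_iff, Set.mem_iUnion]
            constructor
            · rintro ⟨h2, h3⟩
              refine ⟨h2, ?_⟩
              rintro ⟨r, _, h4⟩
              rw [h3] at h4
              simp at h4
            · rintro ⟨h2, h3⟩
              refine ⟨h2, ?_⟩
              cases h4 : (run δ q.1 u).bind δb with
              | none => rfl
              | some r => exact absurd ⟨r, h2, h4⟩ h3
        have hγH : ∀ g, H 0 {u : List α | u ∈ Ov (B' : Set α) ∧ γ u = g} := by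
          intro g
          have h1 := (H_over (B' : Set α)).inter
            (H_iInter (k := 0) _ (fun q : Q' => hall' q (g q)))
          convert h1 using 1
          ext u
          simp only [Set.mem_ofPred_eq, Set.mem_inter_iff, Set.mem_iInter]
          constructor
          · rintro ⟨h2, h3⟩
            exact ⟨h2, fun q => ⟨h2, by rw [← h3]⟩⟩
          · rintro ⟨h2, h3⟩
            exact ⟨h2, funext fun q => (h3 q).2⟩
        have hbs : H 0 (Bs b (B' : Set α)) := H_Bs (B := (B : Set α)) hbB hsub hBB
        have hM : ∀ p q : Q', H 0 {w : List α | w ∈ Bs b (B' : Set α) ∧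
            run δ p.1 w = some q.1} := by
          intro p q
          obtain ⟨P, hP1, hP2⟩ := ih Q' hcard (Q' → Option Q') δ' hm' p q
          have h1 := H_Pb hbB' γ hγH hbs P hP1
          rw [hP2] at h1
          convert h1 using 1
          ext w
          constructor
          · rintro ⟨⟨us, h2, rfl⟩, h3⟩
            refine ⟨us, h2, rfl, ?_⟩
            rw [hrun'] at h3
            show run δ' p (us.map γ) = some q
            cases h4 : run δ' p (us.map γ) with
            | none => rw [h4] at h3; simp at h3
            | some r =>
              rw [h4] at h3
              simp only [Option.map_some, Option.some.injEq] at h3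
              rw [Subtype.ext h3]
          · rintro ⟨us, h2, rfl, h3⟩
            refine ⟨⟨us, h2, rfl⟩, ?_⟩
            have h4 : run δ' p (us.map γ) = some q := h3
            rw [hrun', h4]; rfl
        intro i j
        have h1 := (hR i j).union (H_iUnion_prop (k := 0)
          (fun t : Q × Q' × Q' => δb t.1 = some t.2.1)
          (fun t => cat {w : List α | w ∈ Ov (B' : Set α) ∧ run δ i w = some t.1}
            (cat {[b]} (cat {w : List α | w ∈ Bs b (B' : Set α) ∧
              run δ t.2.1.1 w = some t.2.2.1}
              {w : List α | w ∈ Ov (B' : Set α) ∧ run δ t.2.2.1 w = some j})))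
          (fun t _ => (hR i t.1).cat ((H_letter b).cat ((hM _ _).cat (hR _ _)))))
        convert h1 using 1
        ext w
        constructor
        · rintro ⟨hw, hrw⟩
          obtain ⟨us, v, hus, hv, rfl⟩ := decomp hBB w hw
          cases us with
          | nil =>
            left
            exact ⟨hv, hrw⟩
          | cons u us =>
            right
            rw [glue_cons, List.append_assoc, run_append] at hrw
            cases hp : run δ i u with
            | none => rw [hp] at hrw; simp at hrw
            | some p =>
              rw [hp] at hrw
              simp only [Option.bind_some, List.cons_append, run] at hrw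
              cases hr : δ p b with
              | none => rw [hr] at hrw; simp at hrw
              | some r =>
                rw [hr] at hrw
                simp only [Option.bind_some] at hrw
                have hb1 : δb p = some ⟨r, p, hr⟩ := by rw [hδb]; exact hr
                rw [run_append] at hrw
                have h2 := hrun' us ⟨r, p, hr⟩
                simp only at h2
                rw [h2] at hrw
                cases hs : run δ' ⟨r, p, hr⟩ (us.map γ) with
                | none => rw [hs] at hrw; simp at hrw
                | some s =>
                  rw [hs] at hrw h2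
                  simp only [Option.map_some, Option.bind_some] at hrw h2
                  refine ⟨(p, ⟨r, p, hr⟩, s), hb1, u, ⟨hus u (by simp), hp⟩,
                    b :: (glue b us ++ v), ⟨[b], rfl, glue b us ++ v, ⟨glue b us,
                      ⟨⟨us, fun x hx => hus x (by simp [hx]), rfl⟩, h2⟩, v, ⟨hv, hrw⟩, rfl⟩, rfl⟩,
                    ?_⟩
                  rw [glue_cons, List.append_assoc]; rfl
        · rintro (⟨hw, hrw⟩ | ⟨⟨p, r, s⟩, hb1, u, ⟨hu, hu2⟩, _, ⟨x, hx, _, ⟨m, ⟨⟨us, hus, rfl⟩, hm2⟩,
            v, ⟨hv, hv2⟩, rfl⟩, rfl⟩, rfl⟩)
          · exact ⟨fun a ha => hsub (hw a ha), hrw⟩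
          · obtain rfl : x = [b] := hx
            simp only at hb1 hu2 hm2 hv2
            constructor
            · intro a ha
              rcases List.mem_append.mp ha with ha | ha
              · exact hsub (hu a ha)
              · rcases List.mem_append.mp ha with ha | ha
                · rw [List.mem_singleton.mp ha]; exact hbB
                · rcases List.mem_append.mp ha with ha | ha
                  · exact glue_mem hbB hsub us hus a ha
                  · exact hsub (hv a ha)
            · rw [run_append, hu2]
              simp only [Option.bind_some, List.singleton_append, run]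
              rw [(hδb p r).mp hb1]
              simp only [Option.bind_some]
              rw [run_append, hm2]
              simp only [Option.bind_some]
              exact hv2
    intro i j
    have h1 := key Finset.univ i j
    convert h1 using 1
    ext w
    simp [Ov]

/-- ROW S (Schützenberger for order preserving partial injections) -/
theorem sf_run {α Q : Type} [Fintype α] [DecidableEq α] [Fintype Q] [LinearOrder Q]
    (δ : Q → α → Option Q) (hm : Mono δ) (i j : Q) :
    H 0 {w : List α | run δ i w = some j} :=
  main (Fintype.card Q) Q le_rfl α δ hm i j

end Vale.Agent.H29.GSH
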